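import Vale.Agent.P235.Embed
import Vale.Agent.P235.Elim
import Vale.Agent.P235.Blocks

/-!
Shortest-path metrics of graphs of bounded depth for alternating apices and one-sums (in
particular of bounded elimination distance to forests) embed into l1 with bounded distortion; for
a feedback vertex set `X` the distortion is at most `|X| + 7`.
-/

namespace Vale.Agent.Results.P235.BlockDepth

open Vale.Agent.P235

theorem result :
    (∀ m : ℕ, ∀ (V : Type) [Fintype V] (G : SimpleGraph V), G.Connected →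
      ∀ (l : V → V → ℝ), (∀ u v, G.Adj u v → 0 < l u v) → (∀ u v, G.Adj u v → l u v = l v u) →
      ∀ (d : V → V → ℝ),
        (∀ u v, IsLeast {L | ∃ p : G.Walk u v, (p.darts.map fun e => l e.fst e.snd).sum = L}
          (d u v)) →
      Vale.Agent.P235.BlockDepth m G →
      ∃ (ι : Type) (_ : Fintype ι) (f : V → ι → ℝ), ∀ x y,
        d x y ≤ ∑ i, |f x i - f y i| ∧ ∑ i, |f x i - f y i| ≤ (289 : ℝ) ^ m * d x y) ∧
    (∀ m : ℕ, ∀ (V : Type) [Fintype V] (G : SimpleGraph V), G.Connected →
      ∀ (l : V → V → ℝ), (∀ u v, G.Adj u v → 0 < l u v) → (∀ u v, G.Adj u v → l u v = l v u) →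
      ∀ (d : V → V → ℝ),
        (∀ u v, IsLeast {L | ∃ p : G.Walk u v, (p.darts.map fun e => l e.fst e.snd).sum = L}
          (d u v)) →
      ∀ (h : V → ℕ), (∀ x, h x ≤ m) →
        (∀ v (p : G.Walk v v), p.IsCycle → ∃ x ∈ p.support, 0 < h x) →
        (∀ a b, a ≠ b → 0 < h a → h a = h b → ∀ p : G.Walk a b, ∃ x ∈ p.support, h a < h x) →
      ∃ (ι : Type) (_ : Fintype ι) (f : V → ι → ℝ), ∀ x y,
        d x y ≤ ∑ i, |f x i - f y i| ∧ ∑ i, |f x i - f y i| ≤ (289 : ℝ) ^ m * d x y) ∧
    (∀ (V : Type) [Fintype V] (G : SimpleGraph V), G.Connected →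
      ∀ (l : V → V → ℝ), (∀ u v, G.Adj u v → 0 < l u v) → (∀ u v, G.Adj u v → l u v = l v u) →
      ∀ (d : V → V → ℝ),
        (∀ u v, IsLeast {L | ∃ p : G.Walk u v, (p.darts.map fun e => l e.fst e.snd).sum = L}
          (d u v)) →
      ∀ (X : Finset V), (∀ v (p : G.Walk v v), p.IsCycle → ∃ x ∈ X, x ∈ p.support) →
      ∃ (ι : Type) (_ : Fintype ι) (f : V → ι → ℝ), ∀ x y,
        d x y ≤ ∑ i, |f x i - f y i| ∧
          ∑ i, |f x i - f y i| ≤ ((X.card : ℝ) + 7) * d x y) := by
  refine ⟨?_, ?_, ?_⟩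
  · intro m V _ G hG l hl hsymm d hd hH
    obtain ⟨ι, hι, F, h1, h2⟩ := blockDepth_embedding l m G hH (fun u v e => (hl u v e).le) hsymm
    refine ⟨ι, hι, F, fun x y => ⟨?_, ?_⟩⟩
    · obtain ⟨q, hq⟩ := h2 x y (hG x y)
      exact ((hd x y).2 ⟨q, rfl⟩).trans hq
    · have walk : ∀ {x y : V} (p : G.Walk x y),
          ∑ i, |F x i - F y i| ≤ (289 : ℝ) ^ m * wlen l p := by
        intro x y p
        induction p with
        | nil => simp [wlen]
        | @cons a b c e q ih =>
          have e1 : wlen l (SimpleGraph.Walk.cons e q) = l a b + wlen l q := by simp [wlen]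
          have e2 : ∑ i, |F a i - F c i| ≤
              ∑ i, |F a i - F b i| + ∑ i, |F b i - F c i| := by
            rw [← Finset.sum_add_distrib]
            exact Finset.sum_le_sum fun i _ => abs_sub_le _ _ _
          have := h1 a b e
          rw [e1, mul_add]
          linarith
      obtain ⟨p, hp⟩ := (hd x y).1
      exact (walk p).trans_eq (by rw [← hp, wlen])
  · intro m V _ G hG l hl hsymm d hd h hm hcyc hsep
    obtain ⟨ι, hι, F, h1, h2⟩ := elim_embedding G l (fun u v e => (hl u v e).le) hsymm h hcyc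
      hsep m
    have hlev : ∀ u v, G.Adj u v → (lev G h m).Adj u v := fun u v e => ⟨e, hm u, hm v⟩
    refine ⟨ι, hι, F, fun x y => ⟨?_, ?_⟩⟩
    · obtain ⟨p⟩ := hG x y
      obtain ⟨q, hq⟩ := h2 x y ⟨p.map (⟨id, fun {u v} e => hlev u v e⟩ : G →g lev G h m)⟩
      refine le_trans ?_ hq
      rw [← wlen_mapLe (lev_le G h m)]
      exact (hd x y).2 ⟨_, rfl⟩
    · have walk : ∀ {x y : V} (p : G.Walk x y),
          ∑ i, |F x i - F y i| ≤ (289 : ℝ) ^ m * wlen l p := by
        intro x y p
        induction p with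
        | nil => simp [wlen]
        | @cons a b c e q ih =>
          have e1 : wlen l (SimpleGraph.Walk.cons e q) = l a b + wlen l q := by simp [wlen]
          have e2 : ∑ i, |F a i - F c i| ≤
              ∑ i, |F a i - F b i| + ∑ i, |F b i - F c i| := by
            rw [← Finset.sum_add_distrib]
            exact Finset.sum_le_sum fun i _ => abs_sub_le _ _ _
          have := h1 a b (hlev a b e)
          rw [e1, mul_add]
          linarith
      obtain ⟨p, hp⟩ := (hd x y).1
      exact (walk p).trans_eq (by rw [← hp, wlen])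
  · intro V _ G hG l hl hsymm d hd X hcyc
    classical
    obtain ⟨v₀⟩ := hG.nonempty
    let H : SimpleGraph V :=
      { Adj := fun u v => G.Adj u v ∧ u ∉ X ∧ v ∉ X
        symm := ⟨fun _ _ h => ⟨h.1.symm, h.2.2, h.2.1⟩⟩
        loopless := ⟨fun _ h => h.1.ne rfl⟩ }
    have hHG : H ≤ G := fun _ _ h => h.1
    have hHac : H.IsAcyclic := by
      intro v p hp
      obtain ⟨x, hx, hxp⟩ := hcyc v (p.mapLe hHG) ((SimpleGraph.Walk.isCycle_mapLe hHG).2 hp)
      rw [SimpleGraph.Walk.support_mapLe_eq_support] at hxp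
      obtain ⟨e, he, hxe⟩ := (SimpleGraph.Walk.mem_support_iff_exists_mem_edges_of_not_nil
        hp.not_nil).1 hxp
      revert he hxe
      refine Sym2.ind (fun a b he hxe => ?_) e
      have hab : H.Adj a b := p.adj_of_mem_edges he
      rcases Sym2.mem_iff.1 hxe with rfl | rfl
      exacts [hab.2.1 hx, hab.2.2 hx]
    obtain ⟨ι, hι, f, hf⟩ := fvs_embedding G l (fun u v h => (hl u v h).le) hsymm d hd
      (insert v₀ X) (Finset.insert_nonempty _ _) H hHac (fun u v h => h.1)
      (fun u v h hu hv => ⟨h, hu ∘ Finset.mem_insert_of_mem, hv ∘ Finset.mem_insert_of_mem⟩)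
    refine ⟨ι, hι, f, fun x y => ⟨(hf x y).1, (hf x y).2.trans ?_⟩⟩
    have hd0 : 0 ≤ d x y := by
      obtain ⟨p, hp⟩ := (hd x y).1
      rw [← hp]
      refine List.sum_nonneg fun t ht => ?_
      obtain ⟨e, _, rfl⟩ := List.mem_map.1 ht
      exact (hl _ _ e.adj).le
    have hc : ((insert v₀ X).card : ℝ) ≤ (X.card : ℝ) + 1 := by
      exact_mod_cast Finset.card_insert_le _ _
    exact mul_le_mul_of_nonneg_right (by linarith) hd0

end Vale.Agent.Results.P235.BlockDepth
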